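import Vale.Agent.P038.H139.NF

/-!
# (G) in strict form
-/

namespace Vale.Agent.P038.H892

open Finset Vale.Agent.P038.H139

universe u

variable {V : Type u} [Fintype V]

/-- (G), strict form, in the normal form with the fewest arcs. -/
theorem gstrict [DecidableEq V] {lam : ℝ} {D : OGraph V} {w : V → ℝ} (hm : NFmin lam D w)
    (X : Finset V) (hXne : (outS D X \ X).Nonempty) :
    W w (outS D (outS D X \ X) \ (X ∪ (outS D X \ X))) < lam * W w (outS D X \ X) := by
  classical
  have h : Opt lam D w := hm.toNF.toOpt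
  set L := outS D X \ X with hL
  -- the function d
  set d : Finset V → ℝ := fun T => W w (cl D T \ X) - (1 + lam) * W w T with hd
  have hLX : Disjoint L X := Finset.sdiff_disjoint
  -- d L in terms of the statement
  have hdL : d L = W w (outS D L \ (X ∪ L)) - lam * W w L := by
    have e1 : cl D L \ X = (outS D L \ (X ∪ L)) ∪ L := by
      ext z
      simp only [Finset.mem_sdiff, Finset.mem_union, mem_cl, mem_outS]
      constructor
      · rintro ⟨h1 | h1, h2⟩
        · exact Or.inr h1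
        · by_cases hz : z ∈ L
          · exact Or.inr hz
          · exact Or.inl ⟨h1, fun h3 => h3.elim h2 hz⟩
      · rintro (⟨h1, h2⟩ | h1)
        · exact ⟨Or.inr h1, fun h3 => h2 (Or.inl h3)⟩
        · exact ⟨Or.inl h1, fun h3 => Finset.disjoint_left.1 hLX h1 h3⟩
    have e2 : Disjoint (outS D L \ (X ∪ L)) L := by
      rw [Finset.disjoint_left]
      intro z hz hz'
      exact (Finset.mem_sdiff.1 hz).2 (Finset.mem_union_right _ hz')
    simp only [hd]
    rw [e1, W_union e2]
    ring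
  by_contra hcon
  push Not at hcon
  have hdLpos : 0 ≤ d L := by rw [hdL]; linarith
  have hd0 : d ∅ = 0 := by
    have : cl D (∅ : Finset V) = ∅ := by
      rw [Finset.eq_empty_iff_forall_notMem]
      intro z hz
      rw [mem_cl] at hz
      simp at hz
    simp [hd, this, W]
  obtain ⟨T, hTL, hTne, hmin⟩ : ∃ T, T ⊆ L ∧ T ≠ L ∧ ∀ S ⊆ L, d T ≤ d S := by
    obtain ⟨T0, hT0, hT0min⟩ := Finset.exists_min_image L.powerset d
      ⟨∅, Finset.empty_mem_powerset _⟩
    rw [Finset.mem_powerset] at hT0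
    by_cases hT0L : T0 = L
    · refine ⟨∅, Finset.empty_subset _, ?_, ?_⟩
      · intro he
        exact (Finset.nonempty_iff_ne_empty.1 hXne) he.symm
      · intro S hS
        have h1 := hT0min S (Finset.mem_powerset.2 hS)
        rw [hT0L] at h1
        rw [hd0]
        linarith
    · exact ⟨T0, hT0, hT0L, fun S hS => hT0min S (Finset.mem_powerset.2 hS)⟩
  set Z := L \ T with hZ
  set D' := del D X Z with hD'
  -- E_y
  have key : ∀ y ∈ X, Fw lam D w y + (W w ((cl D (N1 D y ∩ Z)) \ (cl D T ∪ X))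
      - (1 + lam) * W w (N1 D y ∩ Z)) ≤ Fw lam D' w y := by
    intro y hy
    set Dy := N1 D y ∩ Z with hDy
    set Ey := cl D Dy \ (cl D T ∪ X) with hEy
    have hN1 : N1 D' y = N1 D y \ Dy := by
      ext z
      rw [mem_N1, Finset.mem_sdiff, hDy, Finset.mem_inter, mem_N1]
      constructor
      · rintro ⟨h1, h2⟩
        exact ⟨h1, fun h3 => h2 ⟨hy, h3.2⟩⟩
      · rintro ⟨h1, h2⟩
        exact ⟨h1, fun h3 => h2 ⟨h1, h3.2⟩⟩
    have hEsub : Ey ⊆ N2 D y ∪ Dy := by
      intro z hz
      obtain ⟨hz1, hz2⟩ := Finset.mem_sdiff.1 hz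
      have hzX : z ∉ X := fun h3 => hz2 (Finset.mem_union_right _ h3)
      have hzT : z ∉ cl D T := fun h3 => hz2 (Finset.mem_union_left _ h3)
      rw [mem_cl] at hz1
      rcases hz1 with hz1 | ⟨c, hc, hcz⟩
      · exact Finset.mem_union_right _ hz1
      · have hyc : D.arc y c := mem_N1.1 (Finset.mem_inter.1 hc).1
        by_cases hyz : D.arc y z
        · refine Finset.mem_union_right _ (Finset.mem_inter.2 ⟨mem_N1.2 hyz, ?_⟩)
          refine Finset.mem_sdiff.2 ⟨?_, ?_⟩
          · rw [hL]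
            exact Finset.mem_sdiff.2 ⟨mem_outS.2 ⟨y, hy, hyz⟩, hzX⟩
          · intro h3
            exact hzT (mem_cl.2 (Or.inl h3))
        · refine Finset.mem_union_left _ (mem_N2.2 ⟨?_, hyz, c, hyc, hcz⟩)
          rintro rfl
          exact hzX hy
    have hN2 : N2 D' y ⊆ (N2 D y ∪ Dy) \ Ey := by
      intro z hz
      rw [mem_N2] at hz
      obtain ⟨hzy, hnz, c, hyc, hcz⟩ := hz
      refine Finset.mem_sdiff.2 ⟨?_, ?_⟩
      · by_cases hyz : D.arc y z
        · refine Finset.mem_union_right _ (Finset.mem_inter.2 ⟨mem_N1.2 hyz, ?_⟩)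
          by_contra hzZ
          exact hnz ⟨hyz, fun h3 => hzZ h3.2⟩
        · exact Finset.mem_union_left _ (mem_N2.2 ⟨hzy, hyz, c, hyc.1, hcz.1⟩)
      · intro hzE
        obtain ⟨_, hz2⟩ := Finset.mem_sdiff.1 hzE
        have hzX : z ∉ X := fun h3 => hz2 (Finset.mem_union_right _ h3)
        have hzT : z ∉ cl D T := fun h3 => hz2 (Finset.mem_union_left _ h3)
        by_cases hcX : c ∈ X
        · have hzL : z ∈ L := by
            rw [hL]
            exact Finset.mem_sdiff.2 ⟨mem_outS.2 ⟨c, hcX, hcz.1⟩, hzX⟩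
          have hzZ : z ∈ Z := Finset.mem_sdiff.2 ⟨hzL, fun h3 => hzT (mem_cl.2 (Or.inl h3))⟩
          exact hcz.2 ⟨hcX, hzZ⟩
        · have hcL : c ∈ L := by
            rw [hL]
            exact Finset.mem_sdiff.2 ⟨mem_outS.2 ⟨y, hy, hyc.1⟩, hcX⟩
          have hcT : c ∈ T := by
            by_contra hcT
            exact hyc.2 ⟨hy, Finset.mem_sdiff.2 ⟨hcL, hcT⟩⟩
          exact hzT (mem_cl.2 (Or.inr ⟨c, hcT, hcz.1⟩))
    have h1 := W_mono h.nonneg hN2
    rw [W_sdiff hEsub, W_union (by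
      rw [Finset.disjoint_left]
      intro z hz hz'
      exact (mem_N2.1 hz).2.1 (mem_N1.1 (Finset.mem_inter.1 hz').1))] at h1
    have h2 : W w (N1 D' y) = W w (N1 D y) - W w Dy := by
      rw [hN1, W_sdiff Finset.inter_subset_left]
    unfold Fw
    rw [h2]
    nlinarith
  have hE : ∀ y, (1 + lam) * W w (N1 D y ∩ Z) ≤
      W w ((cl D (N1 D y ∩ Z)) \ (cl D T ∪ X)) := by
    intro y
    set Dy := N1 D y ∩ Z with hDy
    have hDyL : Dy ⊆ L := Finset.inter_subset_right.trans Finset.sdiff_subset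
    have hDT : Disjoint T Dy := by
      rw [Finset.disjoint_left]
      intro z hz hz'
      exact (Finset.mem_sdiff.1 (Finset.mem_inter.1 hz').2).2 hz
    have h1 := hmin (T ∪ Dy) (Finset.union_subset hTL hDyL)
    have e1 : cl D (T ∪ Dy) \ X = (cl D T \ X) ∪ (cl D Dy \ (cl D T ∪ X)) := by
      rw [cl_union]
      ext z
      simp only [Finset.mem_sdiff, Finset.mem_union]
      tauto
    have e2 : Disjoint (cl D T \ X) (cl D Dy \ (cl D T ∪ X)) := by
      rw [Finset.disjoint_left]
      intro z hz hz'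
      exact (Finset.mem_sdiff.1 hz').2 (Finset.mem_union_left _ (Finset.mem_sdiff.1 hz).1)
    simp only [hd] at h1
    rw [e1, W_union e2, W_union hDT] at h1
    nlinarith
  have hall : ∀ v, 1 ≤ Fw lam D' w v := by
    intro v
    by_cases hv : v ∈ X
    · have h1 := key v hv
      rw [h.one v] at h1
      have h2 := hE v
      linarith
    · have h1 : N1 D' v = N1 D v := by
        ext z
        rw [mem_N1, mem_N1]
        exact ⟨fun h3 => h3.1, fun h3 => ⟨h3, fun h4 => hv h4.1⟩⟩
      have h2 : N2 D' v ⊆ N2 D v := by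
        intro z hz
        rw [mem_N2] at hz ⊢
        obtain ⟨hzv, hnz, c, hvc, hcz⟩ := hz
        exact ⟨hzv, fun h3 => hnz ⟨h3, fun h4 => hv h4.1⟩, c, hvc.1, hcz.1⟩
      have h3 := W_mono h.nonneg h2
      have h4 := h.one v
      unfold Fw at h4 ⊢
      rw [h1]
      linarith
  -- a row which really changes
  have hZne : Z.Nonempty := by
    rw [Finset.nonempty_iff_ne_empty]
    intro hZe
    apply hTne
    apply Finset.Subset.antisymm hTL
    rw [hZ, Finset.sdiff_eq_empty_iff_subset] at hZe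
    exact hZe
  obtain ⟨z, hz⟩ := hZne
  have hzL : z ∈ L := (Finset.mem_sdiff.1 hz).1
  rw [hL] at hzL
  obtain ⟨y, hy, hyz⟩ := mem_outS.1 (Finset.mem_sdiff.1 hzL).1
  have h5 := hm.arcs_le D' hall
  have h6 : numArcs D' < numArcs D := by
    unfold numArcs
    have hsub : ∀ v, N1 D' v ⊆ N1 D v := by
      intro v z hz
      rw [mem_N1] at hz ⊢
      exact hz.1
    refine Finset.sum_lt_sum (fun v _ => Finset.card_le_card (hsub v))
      ⟨y, Finset.mem_univ _, Finset.card_lt_card ?_⟩
    refine Finset.ssubset_iff_subset_ne.2 ⟨hsub y, ?_⟩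
    intro he
    have h7 : z ∈ N1 D' y := by
      rw [he]
      exact mem_N1.2 hyz
    exact (mem_N1.1 h7).2 ⟨hy, hz⟩
  omega

end Vale.Agent.P038.H892
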