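import Vale.Agent.P038.H892.Star
import Vale.Agent.P038.H892.GStrict

/-!
# No counterexample in normal form
-/

namespace Vale.Agent.P038.H892

open Finset Vale.Agent.P038.H139

universe u

variable {V : Type u} [Fintype V]

attribute [local instance] Classical.propDecidable

/-- The cost of a pair of families. -/
noncomputable def cost (D : OGraph V) (w : V → ℝ) (U X : V → Finset V) : ℝ :=
  ∑ z, w z * cst D w w (U z) + ∑ y, w y * cst D w w (col X y)

theorem colsum (w : V → ℝ) (A : V → Finset V) (hA : ∀ z, z ∈ A z) :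
    ∑ y, w y * W w (col A y) = ∑ z, w z * (W w Finset.univ - W w (A z) + w z) := by
  rw [swap w w (col A)]
  refine Finset.sum_congr rfl fun z _ => ?_
  congr 1
  have e : (Finset.univ.filter fun y => z ∈ col A y) = Finset.univ \ (A z \ {z}) := by
    ext y
    simp only [Finset.mem_filter, Finset.mem_univ, true_and, mem_col, Finset.mem_sdiff,
      Finset.mem_singleton]
    constructor
    · rintro (h | h)
      · tauto
      · subst h; tauto
    · intro h
      by_cases hy : y ∈ A z
      · right
        by_contra hzy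
        exact h ⟨hy, fun h' => hzy h'.symm⟩
      · exact Or.inl hy
  rw [e, W_sdiff (Finset.subset_univ _), W_sdiff (Finset.singleton_subset_iff.2 (hA z))]
  have : W w {z} = w z := by simp [W]
  rw [this]
  ring

theorem cl_col {D : OGraph V} {U X : V → Finset V} (h : Adm D U X) (y : V) :
    cl D (col X y) = col (ii D X) y := by
  ext t
  rw [mem_cl, mem_col (A := ii D X), mem_ii]
  constructor
  · intro h1
    by_cases hty : t = y
    · exact Or.inr hty
    · left
      intro h2
      rcases h1 with h1 | ⟨z, hz, hzt⟩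
      · rcases mem_col.1 h1 with h3 | h3
        · exact h3 (h2 t (Or.inl rfl))
        · exact hty h3
      · rcases mem_col.1 hz with h3 | h3
        · exact h3 (h2 z (Or.inr hzt))
        · subst h3
          exact h.bwd t z hzt (h2 t (Or.inl rfl))
  · rintro (h1 | h1)
    · push Not at h1
      obtain ⟨z, hz, hyz⟩ := h1
      rcases hz with hz | hz
      · subst hz
        exact Or.inl (mem_col.2 (Or.inl hyz))
      · exact Or.inr ⟨z, mem_col.2 (Or.inl hyz), hz⟩
    · subst h1
      exact Or.inl (mem_col.2 (Or.inr rfl))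

theorem ii_col {D : OGraph V} {U X : V → Finset V} (h : Adm D U X) (y : V) :
    ii D (col X) y = col (fun z => cl D (X z)) y := by
  ext z
  rw [mem_ii, mem_col, mem_cl]
  constructor
  · intro h1
    by_cases hzy : z = y
    · exact Or.inr hzy
    · left
      rintro (h2 | ⟨x, hx, hxy⟩)
      · rcases mem_col.1 (h1 y (Or.inl rfl)) with h3 | h3
        · exact h3 h2
        · exact hzy h3
      · rcases mem_col.1 (h1 x (Or.inr hxy)) with h3 | h3
        · exact h3 hx
        · subst h3
          rcases mem_col.1 (h1 y (Or.inl rfl)) with h4 | h4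
          · exact h4 (h.sub _ (h.fwd _ _ hxy))
          · exact hzy h4
  · rintro (h1 | h1) x hx
    · rw [mem_col]
      left
      intro hxX
      apply h1
      rcases hx with hx | hx
      · subst hx; exact Or.inl hxX
      · exact Or.inr ⟨x, hxX, hx⟩
    · subst h1
      rw [mem_col]
      rcases hx with hx | hx
      · exact Or.inr hx.symm
      · exact Or.inl (h.bwd _ _ hx)

theorem cl_ii_col {D : OGraph V} {U X : V → Finset V} (h : Adm D U X) (y : V) :
    cl D (ii D (col X) y) = col (Es D X) y := by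
  ext t
  rw [mem_cl, mem_col, mem_Es]
  constructor
  · intro h1
    by_cases hty : t = y
    · exact Or.inr hty
    · left
      rintro ⟨h2, h3⟩
      rcases h1 with h1 | ⟨z, hz, hzt⟩
      · rw [ii_col h, mem_col] at h1
        rcases h1 with h4 | h4
        · exact h4 (h2 t (Or.inl rfl))
        · exact hty h4
      · rw [ii_col h, mem_col] at hz
        rcases hz with h4 | h4
        · exact h4 (h2 z (Or.inr hzt))
        · subst h4
          exact h3 hzt
  · rintro (h1 | h1)
    · by_cases hyt : D.arc y t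
      · refine Or.inr ⟨y, ?_, hyt⟩
        rw [ii_col h, mem_col]
        exact Or.inr rfl
      · have h2 : ¬ ∀ z, (z = t ∨ D.arc z t) → y ∈ cl D (X z) := fun h3 => h1 ⟨h3, hyt⟩
        push Not at h2
        obtain ⟨z, hz, hyz⟩ := h2
        rcases hz with hz | hz
        · subst hz
          left
          rw [ii_col h, mem_col]
          exact Or.inl hyz
        · refine Or.inr ⟨z, ?_, hz⟩
          rw [ii_col h, mem_col]
          exact Or.inl hyz
    · subst h1
      left
      rw [ii_col h, mem_col]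
      exact Or.inr rfl

theorem self_ii {D : OGraph V} {U X : V → Finset V} (h : Adm D U X) (t : V) : t ∈ ii D U t := by
  rw [mem_ii]
  intro z hz
  rcases hz with hz | hz
  · subst hz; exact h.self _
  · exact h.fwd _ _ hz

/-- The new pair is admissible. -/
theorem adm_new {D : OGraph V} {U X : V → Finset V} (h : Adm D U X) :
    Adm D (fun t => cl D (ii D U t)) (Es D X) := by
  refine ⟨fun z => mem_cl.2 (Or.inl (self_ii h z)), fun z y hzy =>
    mem_cl.2 (Or.inr ⟨z, self_ii h z, hzy⟩), fun z y hyz h1 => (mem_Es.1 h1).2 hyz,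
    fun z => h.cl_sub z⟩

/-- The two costs. -/
theorem cost_in_le {D : OGraph V} {w : V → ℝ} (hw : ∀ v, 0 ≤ w v) {U X : V → Finset V}
    (h : Adm D U X) (hR : R1 D w w U X) (hC : R1 D w w (col X) (col U)) :
    ∑ t, w t * cst D w w (ii D U t) + ∑ y, w y * cst D w w (ii D (col X) y) ≤
      cost D w U X := by
  have hs := star (a := w) (a' := w) (b := w) hw hw hw _ U w h hw hR hC rfl
  have e1 : ∑ y, w y * cst D w w (ii D (col X) y) =
      ∑ z, w z * (W w (cl D (X z)) - W w (Es D X z)) := by
    unfold cst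
    simp only [mul_sub, Finset.sum_sub_distrib]
    have h1 : ∀ y, W w (cl D (ii D (col X) y)) = W w (col (Es D X) y) := fun y => by
      rw [cl_ii_col h]
    have h2 : ∀ y, W w (ii D (col X) y) = W w (col (fun z => cl D (X z)) y) := fun y => by
      rw [ii_col h]
    simp only [h1, h2]
    rw [colsum w (Es D X) (fun z => h.cl_sub z (mem_cl.2 (Or.inl (self_ii h z)))),
      colsum w (fun z => cl D (X z)) (fun z => mem_cl.2 (Or.inl (h.sub z (h.self z))))]
    simp only [mul_sub, mul_add, Finset.sum_sub_distrib, Finset.sum_add_distrib]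
    ring
  have e2 : ∑ y, w y * cst D w w (col X y) =
      ∑ z, w z * (W w (X z) - W w (ii D X z)) := by
    unfold cst
    simp only [mul_sub, Finset.sum_sub_distrib]
    have h1 : ∀ y, W w (cl D (col X y)) = W w (col (ii D X) y) := fun y => by
      rw [cl_col h]
    simp only [h1]
    rw [colsum w (ii D X) (fun z => ii_mono h.sub z (self_ii h z)),
      colsum w X (fun z => h.sub z (h.self z))]
    simp only [mul_sub, mul_add, Finset.sum_sub_distrib, Finset.sum_add_distrib]
    ring
  unfold cost
  rw [e1, e2]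
  simp only [mul_sub, Finset.sum_sub_distrib] at hs ⊢
  unfold cst at hs ⊢
  simp only [mul_sub, Finset.sum_sub_distrib] at hs ⊢
  linarith

/-- The optimal pair is locally optimal. -/
theorem exists_opt_pair (D : OGraph V) {w : V → ℝ} (hw : ∀ v, 0 < w v) :
    ∃ U X : V → Finset V, Adm D U X ∧ R1 D w w U X ∧ R1 D w w (col X) (col U) ∧
      ∀ U' X', Adm D U' X' → cost D w U X ≤ cost D w U' X' := by
  let F : Finset ((V → Finset V) × (V → Finset V)) := Finset.univ.filter fun x => Adm D x.1 x.2
  have hF : F.Nonempty := by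
    refine ⟨(fun z => Finset.univ.filter fun y => y = z ∨ D.arc z y,
      fun z => Finset.univ.filter fun y => ¬ D.arc y z), ?_⟩
    simp only [F, Finset.mem_filter, Finset.mem_univ, true_and]
    refine ⟨fun z => by simp, fun z y hzy => by simp [hzy], fun z y hyz => by simp [hyz],
      fun z y hy => ?_⟩
    simp only [Finset.mem_filter, Finset.mem_univ, true_and] at hy ⊢
    rcases hy with hy | hy
    · subst hy; exact D.loopless _
    · exact D.asymm _ _ hy
  obtain ⟨⟨U, X⟩, hx, hmin⟩ := Finset.exists_min_image F (fun x => cost D w x.1 x.2) hF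
  have h : Adm D U X := (Finset.mem_filter.1 hx).2
  have hmin' : ∀ U' X', Adm D U' X' → cost D w U X ≤ cost D w U' X' := fun U' X' h' =>
    hmin (U', X') (Finset.mem_filter.2 ⟨Finset.mem_univ _, h'⟩)
  refine ⟨U, X, h, ?_, ?_, hmin'⟩
  · intro z0 S h1 h2
    set U' : V → Finset V := Function.update U z0 S with hU'
    have hU'0 : U' z0 = S := by simp [hU']
    have hU'1 : ∀ z, z ≠ z0 → U' z = U z := fun z hz => by simp [hU', hz]
    have hUU' : ∀ z, U z ⊆ U' z := by
      intro z
      by_cases hz : z = z0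
      · subst hz; rw [hU'0]; exact h1
      · rw [hU'1 z hz]
    have hU'X : ∀ z, U' z ⊆ X z := by
      intro z
      by_cases hz : z = z0
      · subst hz; rw [hU'0]; exact h2
      · rw [hU'1 z hz]; exact h.sub z
    have h3 := hmin' U' X ⟨fun z => hUU' z (h.self z), fun z y hzy => hUU' z (h.fwd z y hzy),
      h.bwd, hU'X⟩
    unfold cost at h3
    have h4 : ∑ z, w z * cst D w w (U z) ≤ ∑ z, w z * cst D w w (U' z) := by linarith
    rw [← Finset.add_sum_erase _ _ (Finset.mem_univ z0),
      ← Finset.add_sum_erase _ _ (Finset.mem_univ z0), hU'0] at h4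
    have h5 : ∑ z ∈ Finset.univ.erase z0, w z * cst D w w (U z) =
        ∑ z ∈ Finset.univ.erase z0, w z * cst D w w (U' z) :=
      Finset.sum_congr rfl fun z hz => by rw [hU'1 z (Finset.ne_of_mem_erase hz)]
    have h6 : w z0 * cst D w w (U z0) ≤ w z0 * cst D w w S := by linarith
    exact le_of_mul_le_mul_left h6 (hw z0)
  · intro y0 S h1 h2
    set X' : V → Finset V := fun z => if z ∈ S ∧ z ≠ y0 then (X z).erase y0 else X z with hX'
    have mX' : ∀ z y, y ∈ X' z ↔ y ∈ X z ∧ ¬ (y = y0 ∧ z ∈ S ∧ z ≠ y0) := by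
      intro z y
      simp only [hX']
      split_ifs with hz
      · rw [Finset.mem_erase]
        tauto
      · tauto
    have hcol0 : col X' y0 = S := by
      ext z
      rw [mem_col, mX']
      constructor
      · intro h3
        by_cases hz : z ∈ S
        · exact hz
        · exfalso
          rcases h3 with h3 | h3
          · have h4 : y0 ∉ X z := fun h5 => h3 ⟨h5, fun h6 => hz h6.2.1⟩
            exact hz (h1 (mem_col.2 (Or.inl h4)))
          · exact hz (h1 (mem_col.2 (Or.inr h3)))
      · intro hz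
        by_cases hzy : z = y0
        · exact Or.inr hzy
        · left
          rintro ⟨_, h4⟩
          exact h4 ⟨rfl, hz, hzy⟩
    have hcol1 : ∀ y, y ≠ y0 → col X' y = col X y := by
      intro y hy
      ext z
      rw [mem_col, mem_col, mX']
      tauto
    have h3 := hmin' U X' ⟨h.self, h.fwd, fun z y hyz h4 => h.bwd z y hyz ((mX' z y).1 h4).1,
      fun z y hy => (mX' z y).2 ⟨h.sub z hy, by
        rintro ⟨rfl, h5, h6⟩
        rcases mem_col.1 (h2 h5) with h7 | h7
        · exact h7 hy
        · exact h6 h7⟩⟩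
    unfold cost at h3
    have h4 : ∑ y, w y * cst D w w (col X y) ≤ ∑ y, w y * cst D w w (col X' y) := by linarith
    rw [← Finset.add_sum_erase _ _ (Finset.mem_univ y0),
      ← Finset.add_sum_erase _ _ (Finset.mem_univ y0), hcol0] at h4
    have h5 : ∑ y ∈ Finset.univ.erase y0, w y * cst D w w (col X y) =
        ∑ y ∈ Finset.univ.erase y0, w y * cst D w w (col X' y) :=
      Finset.sum_congr rfl fun y hy => by rw [hcol1 y (Finset.ne_of_mem_erase hy)]
    have h6 : w y0 * cst D w w (col X y0) ≤ w y0 * cst D w w S := by linarith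
    exact le_of_mul_le_mul_left h6 (hw y0)

/-- (G) in the form used here. -/
theorem cst_cl_lt {D : OGraph V} {w : V → ℝ} (h : NFmin 1 D w) (S : Finset V)
    (hS : cl D S ≠ S) : cst D w w (cl D S) < cst D w w S := by
  have e0 : cl D S \ S = outS D S \ S := by
    ext z
    simp only [Finset.mem_sdiff, mem_cl, mem_outS]
    tauto
  have hsub : ∀ T : Finset V, T ⊆ cl D T := fun T z hz => mem_cl.2 (Or.inl hz)
  have hne : (outS D S \ S).Nonempty := by
    rw [← e0, Finset.sdiff_nonempty]
    intro h1
    exact hS (Finset.Subset.antisymm h1 (hsub S))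
  have h1 := gstrict h S hne
  have e1 : outS D (outS D S \ S) \ (S ∪ (outS D S \ S)) = cl D (cl D S) \ cl D S := by
    ext z
    simp only [Finset.mem_sdiff, mem_cl, mem_outS, Finset.mem_union]
    constructor
    · rintro ⟨⟨y, ⟨⟨x, hx, hxy⟩, hyS⟩, hyz⟩, h2⟩
      refine ⟨Or.inr ⟨y, Or.inr ⟨x, hx, hxy⟩, hyz⟩, ?_⟩
      rintro (h3 | ⟨c, hc, hcz⟩)
      · exact h2 (Or.inl h3)
      · by_cases hz : z ∈ S
        · exact h2 (Or.inl hz)
        · exact h2 (Or.inr ⟨⟨c, hc, hcz⟩, hz⟩)
    · rintro ⟨h2, h3⟩
      have hzS : z ∉ S := fun h4 => h3 (Or.inl h4)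
      have hno : ∀ c ∈ S, ¬ D.arc c z := fun c hc hcz => h3 (Or.inr ⟨c, hc, hcz⟩)
      rcases h2 with h2 | ⟨y, hy, hyz⟩
      · exact absurd h2 h3
      · rcases hy with hy | ⟨x, hx, hxy⟩
        · exact absurd hyz (hno y hy)
        · refine ⟨⟨y, ⟨⟨x, hx, hxy⟩, fun hyS => hno y hyS hyz⟩, hyz⟩, ?_⟩
          rintro (h4 | ⟨⟨c, hc, hcz⟩, _⟩)
          · exact hzS h4
          · exact hno c hc hcz
  rw [e1, ← e0, one_mul, W_sdiff (hsub _), W_sdiff (hsub _)] at h1
  unfold cst
  linarith

theorem cst_cl_le {D : OGraph V} {w : V → ℝ} (h : NFmin 1 D w) (S : Finset V) :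
    cst D w w (cl D S) ≤ cst D w w S := by
  by_cases hS : cl D S = S
  · rw [hS]
  · exact (cst_cl_lt h S hS).le

/-- There is no normal form. -/
theorem no_nfmin [Nonempty V] {D : OGraph V} {w : V → ℝ} (h : NFmin 1 D w) : False := by
  obtain ⟨U, X, hA, hR, hC, hmin⟩ := exists_opt_pair D h.toNF.pos
  have h1 := cost_in_le h.toNF.nonneg hA hR hC
  have h2 := hmin _ _ (adm_new hA)
  unfold cost at h2
  have e : ∀ y, cst D w w (col (Es D X) y) = cst D w w (cl D (ii D (col X) y)) := fun y => by
    rw [cl_ii_col hA]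
  simp only [e] at h2
  have h3 : ∑ y, w y * cst D w w (cl D (ii D (col X) y)) ≤
      ∑ y, w y * cst D w w (ii D (col X) y) :=
    Finset.sum_le_sum fun y _ => mul_le_mul_of_nonneg_left (cst_cl_le h _) (h.toNF.nonneg y)
  -- all `P t` are closed
  have hcl : ∀ t, cl D (ii D U t) = ii D U t := by
    by_contra hcon
    push Not at hcon
    obtain ⟨t, ht⟩ := hcon
    have h4 : ∑ t, w t * cst D w w (cl D (ii D U t)) < ∑ t, w t * cst D w w (ii D U t) := by
      refine Finset.sum_lt_sum (fun z _ => mul_le_mul_of_nonneg_left (cst_cl_le h _)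
        (h.toNF.nonneg z)) ⟨t, Finset.mem_univ _, ?_⟩
      exact mul_lt_mul_of_pos_left (cst_cl_lt h _ ht) (h.toNF.pos t)
    unfold cost at h1
    linarith
  -- a minimal nonempty closed set
  let F : Finset (Finset V) := Finset.univ.filter fun S => S.Nonempty ∧ cl D S ⊆ S
  have hF : F.Nonempty := ⟨Finset.univ, Finset.mem_filter.2 ⟨Finset.mem_univ _,
    Finset.univ_nonempty, Finset.subset_univ _⟩⟩
  obtain ⟨S, hS, hSmin⟩ := Finset.exists_min_image F Finset.card hF
  obtain ⟨⟨t, ht⟩, hScl⟩ := (Finset.mem_filter.1 hS).2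
  -- `t` has an out-neighbour
  have hout : ∃ u, D.arc t u := by
    by_contra hno
    push Not at hno
    have h5 := h.toNF.one t
    have h6 : N1 D t = ∅ := by
      rw [Finset.eq_empty_iff_forall_notMem]
      intro z hz
      exact hno z (mem_N1.1 hz)
    unfold Fw at h5
    rw [h6] at h5
    have h7 : W w (∅ : Finset V) = 0 := by simp [W]
    have h8 := W_nonneg h.toNF.nonneg (N2 D t)
    rw [h7] at h5
    linarith
  obtain ⟨u, hu⟩ := hout
  have hin : ∃ s ∈ S, D.arc s t := by
    by_contra hno
    push Not at hno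
    have h5 : S.erase t ∈ F := by
      refine Finset.mem_filter.2 ⟨Finset.mem_univ _, ⟨u, ?_⟩, ?_⟩
      · rw [Finset.mem_erase]
        refine ⟨?_, hScl (mem_cl.2 (Or.inr ⟨t, ht, hu⟩))⟩
        rintro rfl
        exact D.loopless _ hu
      · intro z hz
        rw [mem_cl] at hz
        rcases hz with hz | ⟨y, hy, hyz⟩
        · exact hz
        · have hyS := Finset.mem_of_mem_erase hy
          rw [Finset.mem_erase]
          refine ⟨?_, hScl (mem_cl.2 (Or.inr ⟨y, hyS, hyz⟩))⟩
          rintro rfl
          exact hno y hyS hyz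
    have h6 := hSmin _ h5
    have h7 := Finset.card_erase_lt_of_mem ht
    omega
  obtain ⟨s, hs, hst⟩ := hin
  have h5 : ii D U t ∩ S ∈ F := by
    refine Finset.mem_filter.2 ⟨Finset.mem_univ _, ⟨t, Finset.mem_inter.2 ⟨self_ii hA t, ht⟩⟩, ?_⟩
    intro z hz
    rw [Finset.mem_inter]
    refine ⟨?_, hScl (cl_mono Finset.inter_subset_right hz)⟩
    rw [← hcl t]
    exact cl_mono Finset.inter_subset_left hz
  have h6 := hSmin _ h5
  have h7 : ii D U t ∩ S = S := Finset.eq_of_subset_of_card_le Finset.inter_subset_right h6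
  have h8 : s ∈ ii D U t := by
    rw [← h7] at hs
    exact (Finset.mem_inter.1 hs).1
  exact hA.bwd t s hst (hA.sub t (mem_ii.1 h8 t (Or.inl rfl)))

/-- **Seymour's second neighbourhood conjecture**, weighted form. -/
theorem seymour {V : Type u} [Fintype V] [Nonempty V] (D : OGraph V) (w : V → ℝ)
    (hw : ∀ v, 0 ≤ w v) : ∃ v, ∑ u ∈ N1 D v, w u ≤ ∑ u ∈ N2 D v, w u := by
  obtain ⟨v, hv⟩ := snc_of_noNF (lam := 1) zero_le_one (fun V _ _ D w h => by
    obtain ⟨D', w', h'⟩ := exists_nfmin h
    exact no_nfmin h') D w hw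
  exact ⟨v, by rwa [one_mul] at hv⟩

end Vale.Agent.P038.H892
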