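import Vale.Agent.P038.H139.Steps

/-!
# The inequality (STAR)
-/

namespace Vale.Agent.P038.H892

open Finset Vale.Agent.P038.H139

variable {V : Type*} [Fintype V]

attribute [local instance] Classical.propDecidable

/-- `p(N[S]) - q(S)`. -/
noncomputable def cst (D : OGraph V) (p q : V → ℝ) (S : Finset V) : ℝ := W p (cl D S) - W q S

omit [Fintype V] in
theorem W_sub_nonneg {w : V → ℝ} (hw : ∀ v, 0 ≤ w v) {S T : Finset V} (h : S ⊆ T) :
    W w S ≤ W w T := Finset.sum_le_sum_of_subset_of_nonneg h fun v _ _ => hw v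

omit [Fintype V] in
theorem W_inter_union (w : V → ℝ) (S T : Finset V) :
    W w (S ∩ T) + W w (S ∪ T) = W w S + W w T := by
  have := Finset.sum_union_inter (f := w) (s₁ := S) (s₂ := T)
  unfold W
  linarith

theorem cst_submod (D : OGraph V) {p : V → ℝ} (hp : ∀ v, 0 ≤ p v) (q : V → ℝ) (S T : Finset V) :
    cst D p q (S ∩ T) + cst D p q (S ∪ T) ≤ cst D p q S + cst D p q T := by
  unfold cst
  have h1 := W_inter_union q S T
  have h2 := W_inter_union p (cl D S) (cl D T)
  have h3 : cl D (S ∩ T) ⊆ cl D S ∩ cl D T :=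
    Finset.subset_inter (cl_mono Finset.inter_subset_left) (cl_mono Finset.inter_subset_right)
  have h4 := W_sub_nonneg hp h3
  rw [cl_union]
  linarith

omit [Fintype V] in
/-- Uncrossing. -/
theorem inter_le {c : Finset V → ℝ} (hc : ∀ S T, c (S ∩ T) + c (S ∪ T) ≤ c S + c T)
    {ι : Type*} (I : Finset ι) (A B : ι → Finset V)
    (h : ∀ i ∈ I, ∀ S, A i ⊆ S → S ⊆ B i → c (A i) ≤ c S) (hAB : ∀ i ∈ I, A i ⊆ B i)
    (S : Finset V) (hS : ∀ i ∈ I, S ⊆ B i) :
    ∀ R : Finset V, (∀ x, x ∈ R ↔ x ∈ S ∧ ∀ i ∈ I, x ∈ A i) → c R ≤ c S := by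
  induction I using Finset.induction_on with
  | empty =>
    intro R hR
    have : R = S := by
      ext x
      rw [hR]
      simp
    rw [this]
  | insert i I hi ih =>
    intro R hR
    have h1 := ih (fun j hj => h j (Finset.mem_insert_of_mem hj))
      (fun j hj => hAB j (Finset.mem_insert_of_mem hj))
      (fun j hj => hS j (Finset.mem_insert_of_mem hj))
      (S.filter fun x => ∀ j ∈ I, x ∈ A j) (fun x => by simp)
    set S1 := S.filter fun x => ∀ j ∈ I, x ∈ A j with hS1
    have e : R = S1 ∩ A i := by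
      ext x
      rw [hR]
      simp only [hS1, Finset.mem_filter, Finset.mem_inter, Finset.mem_insert, forall_eq_or_imp]
      tauto
    have hSB : S1 ⊆ B i := (Finset.filter_subset _ _).trans (hS i (Finset.mem_insert_self _ _))
    have h2 := h i (Finset.mem_insert_self _ _) (S1 ∪ A i) Finset.subset_union_right
      (Finset.union_subset hSB (hAB i (Finset.mem_insert_self _ _)))
    have h3 := hc S1 (A i)
    rw [e]
    linarith

/-- Intersection of the sets `A z`, `z ∈ N⁻[t]`. -/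
noncomputable def ii (D : OGraph V) (A : V → Finset V) (t : V) : Finset V :=
  Finset.univ.filter fun y => ∀ z, (z = t ∨ D.arc z t) → y ∈ A z

theorem mem_ii {D : OGraph V} {A : V → Finset V} {t y : V} :
    y ∈ ii D A t ↔ ∀ z, (z = t ∨ D.arc z t) → y ∈ A z := by simp [ii]

theorem ii_mono {D : OGraph V} {A B : V → Finset V} (h : ∀ z, A z ⊆ B z) (t : V) :
    ii D A t ⊆ ii D B t := by
  intro y hy
  rw [mem_ii] at hy ⊢
  exact fun z hz => h z (hy z hz)

theorem ii_le {D : OGraph V} {c : Finset V → ℝ} (hc : ∀ S T, c (S ∩ T) + c (S ∪ T) ≤ c S + c T)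
    (A B : V → Finset V) (h : ∀ i, ∀ S, A i ⊆ S → S ⊆ B i → c (A i) ≤ c S)
    (hAB : ∀ i, A i ⊆ B i) (t : V) (S : Finset V) (h1 : ii D A t ⊆ S) (h2 : S ⊆ ii D B t) :
    c (ii D A t) ≤ c S := by
  have h3 := inter_le hc (Finset.univ.filter fun z => z = t ∨ D.arc z t) A B
    (fun i _ => h i) (fun i _ => hAB i) S (by
      intro i hi x hx
      exact mem_ii.1 (h2 hx) i (Finset.mem_filter.1 hi).2)
  refine h3 _ fun x => ?_
  rw [mem_ii]
  constructor
  · intro h4
    exact ⟨h1 (mem_ii.2 h4), fun i hi => h4 i (by simpa using hi)⟩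
  · rintro ⟨_, h4⟩ z hz
    exact h4 z (by simpa using hz)

/-- The column sets: `{z | y ∉ A z} ∪ {y}`. -/
noncomputable def col (A : V → Finset V) (y : V) : Finset V :=
  Finset.univ.filter fun z => y ∉ A z ∨ z = y

theorem mem_col {A : V → Finset V} {y z : V} : z ∈ col A y ↔ y ∉ A z ∨ z = y := by simp [col]

/-- `E t`: the `v` without arc to `t` which lie in `N[X z]` for all `z ∈ N⁻[t]`. -/
noncomputable def Es (D : OGraph V) (X : V → Finset V) (t : V) : Finset V :=
  Finset.univ.filter fun v => (∀ z, (z = t ∨ D.arc z t) → v ∈ cl D (X z)) ∧ ¬ D.arc v t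

theorem mem_Es {D : OGraph V} {X : V → Finset V} {t v : V} :
    v ∈ Es D X t ↔ (∀ z, (z = t ∨ D.arc z t) → v ∈ cl D (X z)) ∧ ¬ D.arc v t := by simp [Es]

/-- Admissible pairs of families. -/
structure Adm (D : OGraph V) (U X : V → Finset V) : Prop where
  self : ∀ z, z ∈ U z
  fwd : ∀ z y, D.arc z y → y ∈ U z
  bwd : ∀ z y, D.arc y z → y ∉ X z
  sub : ∀ z, U z ⊆ X z

/-- Local optimality of the rows. -/
def R1 (D : OGraph V) (p q : V → ℝ) (U X : V → Finset V) : Prop :=
  ∀ z S, U z ⊆ S → S ⊆ X z → cst D p q (U z) ≤ cst D p q S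

theorem col_anti {A B : V → Finset V} (h : ∀ z, A z ⊆ B z) (y : V) : col B y ⊆ col A y := by
  intro z hz
  rw [mem_col] at hz ⊢
  exact hz.imp (fun h1 h2 => h1 (h z h2)) id

theorem Adm.cl_sub {D : OGraph V} {U X : V → Finset V} (h : Adm D U X) (t : V) :
    cl D (ii D U t) ⊆ Es D X t := by
  intro v hv
  rw [mem_Es]
  refine ⟨fun z hz => ?_, ?_⟩
  · refine cl_mono ?_ hv
    intro y hy
    exact h.sub z (mem_ii.1 hy z hz)
  · intro hvt
    rw [mem_cl] at hv
    rcases hv with hv | ⟨y, hy, hyv⟩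
    · exact h.bwd t v hvt (h.sub t (mem_ii.1 hv t (Or.inl rfl)))
    · exact h.bwd v y hyv (h.sub v (mem_ii.1 hy v (Or.inr hvt)))

/-- Step 1, for one vertex `v`. -/
theorem col_bound {D : OGraph V} {U X : V → Finset V} (h : Adm D U X) {a a' : V → ℝ}
    (ha : ∀ v, 0 ≤ a v) (ha' : ∀ v, 0 ≤ a' v) (hC : R1 D a' a (col X) (col U)) (v : V) :
    W a (Finset.univ.filter fun z => v ∈ cl D (X z) ∧ v ∉ cl D (U z)) ≤
      W a' (Finset.univ.filter fun t => v ∈ Es D X t ∧ v ∉ cl D (ii D U t)) := by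
  set W' := ii D (col X) v with hW'
  set V' := ii D (col U) v with hV'
  have hWV : W' ⊆ V' := ii_mono (col_anti h.sub) v
  have h0 := ii_le (D := D) (cst_submod D ha' a) (col X) (col U) hC (col_anti h.sub) v V'
    hWV (Finset.Subset.refl _)
  have h1 : (Finset.univ.filter fun z => v ∈ cl D (X z) ∧ v ∉ cl D (U z)) ⊆ V' \ W' := by
    intro z hz
    obtain ⟨hz1, hz2⟩ := (Finset.mem_filter.1 hz).2
    have hU : ∀ y, (y = v ∨ D.arc y v) → y ∉ U z := by
      intro y hy hyU
      apply hz2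
      rw [mem_cl]
      rcases hy with rfl | hy
      · exact Or.inl hyU
      · exact Or.inr ⟨y, hyU, hy⟩
    rw [Finset.mem_sdiff]
    refine ⟨mem_ii.2 fun y hy => mem_col.2 (Or.inl (hU y hy)), ?_⟩
    intro hzW
    rw [hW', mem_ii] at hzW
    rw [mem_cl] at hz1
    obtain ⟨y, hy, hyX⟩ : ∃ y, (y = v ∨ D.arc y v) ∧ y ∈ X z := by
      rcases hz1 with hz1 | ⟨y, hy, hyv⟩
      · exact ⟨v, Or.inl rfl, hz1⟩
      · exact ⟨y, Or.inr hyv, hy⟩
    rcases mem_col.1 (hzW y hy) with h3 | h3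
    · exact h3 hyX
    · subst h3
      exact hU z hy (h.self z)
  have h2 : cl D V' \ cl D W' ⊆
      (Finset.univ.filter fun t => v ∈ Es D X t ∧ v ∉ cl D (ii D U t)) := by
    intro t ht
    obtain ⟨ht1, ht2⟩ := Finset.mem_sdiff.1 ht
    have hvW : v ∈ W' := by
      rw [hW', mem_ii]
      intro y hy
      rcases hy with rfl | hy
      · exact mem_col.2 (Or.inr rfl)
      · exact mem_col.2 (Or.inl (h.bwd v y hy))
    have hvt : ¬ D.arc v t := fun h3 => ht2 (mem_cl.2 (Or.inr ⟨v, hvW, h3⟩))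
    have hvt' : v ≠ t := by
      rintro rfl
      exact ht2 (mem_cl.2 (Or.inl hvW))
    have hnW : ∀ z, (z = t ∨ D.arc z t) → z ∉ W' := by
      intro z hz hzW
      apply ht2
      rw [mem_cl]
      rcases hz with rfl | hz
      · exact Or.inl hzW
      · exact Or.inr ⟨z, hzW, hz⟩
    obtain ⟨z, hz, hzV⟩ : ∃ z, (z = t ∨ D.arc z t) ∧ z ∈ V' := by
      rw [mem_cl] at ht1
      rcases ht1 with h3 | ⟨z, hz, hzt⟩
      · exact ⟨t, Or.inl rfl, h3⟩
      · exact ⟨z, Or.inr hzt, hz⟩
    have hzv : z ≠ v := by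
      rintro rfl
      exact hnW z hz hvW
    rw [hV', mem_ii] at hzV
    have hzU : ∀ y, (y = v ∨ D.arc y v) → y ∉ U z := by
      intro y hy
      rcases mem_col.1 (hzV y hy) with h3 | h3
      · exact h3
      · exfalso
        subst h3
        rcases hy with h4 | h4
        · exact hzv h4
        · rcases mem_col.1 (hzV v (Or.inl rfl)) with h5 | h5
          · exact h5 (h.fwd z v h4)
          · exact hzv h5
    rw [Finset.mem_filter]
    refine ⟨Finset.mem_univ _, ?_, ?_⟩
    · rw [mem_Es]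
      refine ⟨fun z' hz' => ?_, hvt⟩
      have h3 := hnW z' hz'
      rw [hW', mem_ii] at h3
      push Not at h3
      obtain ⟨y, hy, hyc⟩ := h3
      rw [mem_col] at hyc
      push Not at hyc
      rw [mem_cl]
      rcases hy with rfl | hy
      · exact Or.inl hyc.1
      · exact Or.inr ⟨y, hyc.1, hy⟩
    · intro h3
      rw [mem_cl] at h3
      rcases h3 with h3 | ⟨y, hy, hyv⟩
      · exact hzU v (Or.inl rfl) (mem_ii.1 h3 z hz)
      · exact hzU y (Or.inr hyv) (mem_ii.1 hy z hz)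
  have h3 := W_sub_nonneg ha h1
  have h4 := W_sub_nonneg ha' h2
  rw [W_sdiff hWV] at h3
  rw [W_sdiff (cl_mono hWV)] at h4
  unfold cst at h0
  linarith

/-- Double counting. -/
theorem swap (p q : V → ℝ) (S : V → Finset V) :
    ∑ t, p t * W q (S t) = ∑ v, q v * W p (Finset.univ.filter fun t => v ∈ S t) := by
  have e1 : ∀ t, p t * W q (S t) = ∑ v, if v ∈ S t then p t * q v else 0 := by
    intro t
    unfold W
    rw [Finset.mul_sum, ← Finset.sum_filter]
    refine Finset.sum_congr ?_ fun _ _ => rfl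
    ext v
    simp
  have e2 : ∀ v, q v * W p (Finset.univ.filter fun t => v ∈ S t) =
      ∑ t, if v ∈ S t then p t * q v else 0 := by
    intro v
    unfold W
    rw [Finset.mul_sum, ← Finset.sum_filter]
    refine Finset.sum_congr rfl fun t _ => mul_comm _ _
  simp only [e1, e2]
  exact Finset.sum_comm

/-- The part of (STAR) which is linear in the second weight. -/
theorem g_nonneg {D : OGraph V} {U X : V → Finset V} (h : Adm D U X) {a a' b' : V → ℝ}
    (ha : ∀ v, 0 ≤ a v) (ha' : ∀ v, 0 ≤ a' v) (hb' : ∀ v, 0 ≤ b' v)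
    (hC : R1 D a' a (col X) (col U)) :
    ∑ z, a z * (W b' (cl D (X z)) - W b' (cl D (U z))) ≤
      ∑ t, a' t * (W b' (Es D X t) - W b' (cl D (ii D U t))) := by
  have e1 : ∀ z, a z * (W b' (cl D (X z)) - W b' (cl D (U z))) =
      a z * W b' (cl D (X z) \ cl D (U z)) := by
    intro z
    rw [W_sdiff (cl_mono (h.sub z))]
  have e2 : ∀ t, a' t * (W b' (Es D X t) - W b' (cl D (ii D U t))) =
      a' t * W b' (Es D X t \ cl D (ii D U t)) := by
    intro t
    rw [W_sdiff (h.cl_sub t)]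
  simp only [e1, e2]
  rw [swap a b', swap a' b']
  refine Finset.sum_le_sum fun v _ => mul_le_mul_of_nonneg_left ?_ (hb' v)
  simp only [Finset.mem_sdiff]
  exact col_bound h ha ha' hC v

/-- (STAR) -/
theorem star {D : OGraph V} {X : V → Finset V} {a a' b : V → ℝ}
    (ha : ∀ v, 0 ≤ a v) (ha' : ∀ v, 0 ≤ a' v) (hb : ∀ v, 0 ≤ b v) (n : ℕ) :
    ∀ (U : V → Finset V) (b' : V → ℝ), Adm D U X → (∀ v, 0 ≤ b' v) →
      R1 D b' b U X → R1 D a' a (col X) (col U) → (∑ z, (X z \ U z).card) = n →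
      ∑ z, a z * (cst D b' b (X z) - cst D b' b (U z)) ≤
        ∑ t, a' t * (W b' (Es D X t) - W b (ii D X t) - cst D b' b (ii D U t)) := by
  induction n using Nat.strong_induction_on with
  | _ n ih =>
  intro U b' h hb' hR hC hn
  by_cases hall : ∀ z, X z = U z
  · have hXU : X = U := funext hall
    subst hXU
    have h1 : ∑ z, a z * (cst D b' b (X z) - cst D b' b (X z)) = 0 := by simp
    rw [h1]
    refine Finset.sum_nonneg fun t _ => mul_nonneg (ha' t) ?_
    have h2 := W_sub_nonneg hb' (h.cl_sub t)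
    unfold cst
    linarith
  push Not at hall
  obtain ⟨z1, hz1⟩ := hall
  -- the constraints
  let Q : Finset (V × Finset V) := Finset.univ.filter fun x =>
    U x.1 ⊆ x.2 ∧ x.2 ⊆ X x.1 ∧ x.2 ≠ U x.1
  have hQ : Q.Nonempty := ⟨(z1, X z1), by
    simp only [Q, Finset.mem_filter, Finset.mem_univ, true_and]
    exact ⟨h.sub z1, Finset.Subset.refl _, hz1⟩⟩
  let A : V × Finset V → ℝ := fun x => W b' (cl D x.2) - W b' (cl D (U x.1))
  let B : V × Finset V → ℝ := fun x => W b x.2 - W b (U x.1)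
  have hA0 : ∀ x ∈ Q, 0 ≤ A x := by
    intro x hx
    obtain ⟨h1, h2, h3⟩ := (Finset.mem_filter.1 hx).2
    have := W_sub_nonneg hb' (cl_mono (D := D) h1)
    simp only [A]
    linarith
  have hB0 : ∀ x ∈ Q, 0 ≤ B x := by
    intro x hx
    obtain ⟨h1, h2, h3⟩ := (Finset.mem_filter.1 hx).2
    have := W_sub_nonneg hb h1
    simp only [B]
    linarith
  have hBA : ∀ x ∈ Q, B x ≤ A x := by
    intro x hx
    obtain ⟨h1, h2, h3⟩ := (Finset.mem_filter.1 hx).2
    have := hR x.1 x.2 h1 h2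
    simp only [A, B]
    unfold cst at this
    linarith
  obtain ⟨x0, hx0, hmax⟩ := Finset.exists_max_image Q (fun x => B x / A x) hQ
  set s : ℝ := B x0 / A x0 with hs
  have hs0 : 0 ≤ s := div_nonneg (hB0 x0 hx0) (hA0 x0 hx0)
  have hs1 : s ≤ 1 := by
    rcases (hA0 x0 hx0).eq_or_lt with h1 | h1
    · rw [hs, ← h1, div_zero]
      exact zero_le_one
    · rw [hs, div_le_one h1]
      exact hBA x0 hx0
  have htight : s * A x0 = B x0 := by
    rcases (hA0 x0 hx0).eq_or_lt with h1 | h1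
    · have h2 := hBA x0 hx0
      have h3 := hB0 x0 hx0
      rw [← h1] at h2 ⊢
      rw [mul_zero]
      linarith
    · rw [hs, div_mul_cancel₀ _ h1.ne']
  have hle : ∀ x ∈ Q, B x ≤ s * A x := by
    intro x hx
    rcases (hA0 x hx).eq_or_lt with h1 | h1
    · have h2 := hBA x hx
      rw [← h1] at h2 ⊢
      rw [mul_zero]
      exact h2
    · have h2 := hmax x hx
      rw [div_le_iff₀ h1] at h2
      exact h2
  set b'' : V → ℝ := fun v => s * b' v with hb''
  have hWs : ∀ S, W b'' S = s * W b' S := by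
    intro S
    simp only [W, hb'', Finset.mul_sum]
  have hb''0 : ∀ v, 0 ≤ b'' v := fun v => mul_nonneg hs0 (hb' v)
  have hR'' : R1 D b'' b U X := by
    intro z S h1 h2
    by_cases h3 : S = U z
    · rw [h3]
    · have h4 := hle (z, S) (by
        simp only [Q, Finset.mem_filter, Finset.mem_univ, true_and]
        exact ⟨h1, h2, h3⟩)
      simp only [A, B] at h4
      unfold cst
      rw [hWs, hWs]
      linarith
  -- the tight row
  obtain ⟨z0, S0⟩ := x0
  obtain ⟨hx1, hx2, hx3⟩ := (Finset.mem_filter.1 hx0).2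
  simp only at hx1 hx2 hx3
  have htight' : cst D b'' b S0 = cst D b'' b (U z0) := by
    simp only [A, B] at htight
    unfold cst
    rw [hWs, hWs]
    linarith
  set U' : V → Finset V := Function.update U z0 S0 with hU'
  have hU'0 : U' z0 = S0 := by simp [hU']
  have hU'1 : ∀ z, z ≠ z0 → U' z = U z := fun z hz => by simp [hU', hz]
  have hUU' : ∀ z, U z ⊆ U' z := by
    intro z
    by_cases hz : z = z0
    · subst hz; rw [hU'0]; exact hx1
    · rw [hU'1 z hz]
  have hU'X : ∀ z, U' z ⊆ X z := by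
    intro z
    by_cases hz : z = z0
    · subst hz; rw [hU'0]; exact hx2
    · rw [hU'1 z hz]; exact h.sub z
  have hAdm : Adm D U' X := ⟨fun z => hUU' z (h.self z), fun z y hzy => hUU' z (h.fwd z y hzy),
    h.bwd, hU'X⟩
  have hR' : R1 D b'' b U' X := by
    intro z S h1 h2
    by_cases hz : z = z0
    · subst hz
      rw [hU'0] at h1 ⊢
      rw [htight']
      exact hR'' z S (hx1.trans h1) h2
    · rw [hU'1 z hz] at h1 ⊢
      exact hR'' z S h1 h2
  have hC' : R1 D a' a (col X) (col U') := by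
    intro y S h1 h2
    exact hC y S h1 (h2.trans (col_anti hUU' y))
  have hlt : (∑ z, (X z \ U' z).card) < n := by
    rw [← hn]
    refine Finset.sum_lt_sum (fun z _ => Finset.card_le_card
      (Finset.sdiff_subset_sdiff (Finset.Subset.refl _) (hUU' z))) ⟨z0, Finset.mem_univ _, ?_⟩
    apply Finset.card_lt_card
    rw [hU'0]
    refine Finset.ssubset_iff_subset_ne.2
      ⟨Finset.sdiff_subset_sdiff (Finset.Subset.refl _) hx1, ?_⟩
    intro he
    apply hx3
    apply Finset.Subset.antisymm _ hx1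
    intro y hy
    by_contra hyU
    have h1 : y ∈ X z0 \ U z0 := Finset.mem_sdiff.2 ⟨hx2 hy, hyU⟩
    rw [← he] at h1
    exact (Finset.mem_sdiff.1 h1).2 hy
  have key := ih _ hlt U' b'' hAdm hb''0 hR' hC' rfl
  -- comparison of the two inequalities
  have hg := g_nonneg h ha ha' hb' hC
  have hfirst : ∑ z, a z * (cst D b'' b (X z) - cst D b'' b (U' z)) =
      ∑ z, a z * (cst D b'' b (X z) - cst D b'' b (U z)) := by
    refine Finset.sum_congr rfl fun z _ => ?_
    by_cases hz : z = z0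
    · subst hz; rw [hU'0, htight']
    · rw [hU'1 z hz]
  have hsecond : ∑ t, a' t * (W b'' (Es D X t) - W b (ii D X t) - cst D b'' b (ii D U' t)) ≤
      ∑ t, a' t * (W b'' (Es D X t) - W b (ii D X t) - cst D b'' b (ii D U t)) := by
    refine Finset.sum_le_sum fun t _ => mul_le_mul_of_nonneg_left ?_ (ha' t)
    have := ii_le (D := D) (cst_submod D hb''0 b) U X hR'' h.sub t (ii D U' t)
      (ii_mono hUU' t) (ii_mono hU'X t)
    linarith
  have e1 : ∑ z, a z * (cst D b' b (X z) - cst D b' b (U z)) =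
      ∑ z, a z * (cst D b'' b (X z) - cst D b'' b (U z)) +
      (1 - s) * ∑ z, a z * (W b' (cl D (X z)) - W b' (cl D (U z))) := by
    rw [Finset.mul_sum, ← Finset.sum_add_distrib]
    refine Finset.sum_congr rfl fun z _ => ?_
    unfold cst
    rw [hWs, hWs]
    ring
  have e2 : ∑ t, a' t * (W b' (Es D X t) - W b (ii D X t) - cst D b' b (ii D U t)) =
      ∑ t, a' t * (W b'' (Es D X t) - W b (ii D X t) - cst D b'' b (ii D U t)) +
      (1 - s) * ∑ t, a' t * (W b' (Es D X t) - W b' (cl D (ii D U t))) := by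
    rw [Finset.mul_sum, ← Finset.sum_add_distrib]
    refine Finset.sum_congr rfl fun t _ => ?_
    unfold cst
    rw [hWs, hWs]
    ring
  rw [e1, e2]
  have h5 : (1 - s) * ∑ z, a z * (W b' (cl D (X z)) - W b' (cl D (U z))) ≤
      (1 - s) * ∑ t, a' t * (W b' (Es D X t) - W b' (cl D (ii D U t))) :=
    mul_le_mul_of_nonneg_left hg (by linarith)
  rw [hfirst] at key
  linarith

end Vale.Agent.P038.H892
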